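import Vale.Agent.P281.H949.GM.Curv
import Vale.Agent.P281.H167.GM.Iface
import Vale.Agent.P301.H508.Germs
import Vale.Agent.P272.K.AMP.Main.Step0
import Vale.Agent.P272.K.Asm.Twisted

/-!
# P281, theorem GM, block F: the singular metric of `K_X` defined by sections which generate locally
principal ideals
-/

open scoped Manifold ContDiff Topology ComplexOrder
open Set Filter Vale.Agent.P281.J Vale.Agent.P272.K
open Vale.Agent.P299
open Vale.Agent.P272.K.INT (IsClosedForm)

set_option linter.all false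

noncomputable section

namespace Vale.Agent.P281.H949.GM

open Vale.Agent.P281.H949.SA Vale.Agent.P281.H713.SA Vale.Agent.P281.H167.GM Vale.Agent.P299.H223

variable {n : ℕ} {X : Type} [TopologicalSpace X] [ChartedSpace (Cm n) X]

/-- a holomorphic function in a chart -/
lemma holAt_chart [IsManifold 𝓘(ℂ, Cm n) ω X] {a : X → ℂ} {e : Chart n X} {x : X} (h : At e x)
    (ha : HolAt (Cm n) a x) : ContDiffAt ℂ ω (fun z => a (e.symm z)) (e x) := by
  rw [← contMDiffAt_iff_contDiffAt]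
  refine ContMDiffAt.comp (e x) (g := a) ?_ (chart_symm_contMDiffAt h.1 h.mem_target)
  rw [h.left_inv]
  exact ha

lemma holAt_ev [IsManifold 𝓘(ℂ, Cm n) ω X] {a : X → ℂ} {x : X} (ha : HolAt (Cm n) a x) :
    ∀ᶠ y in 𝓝 x, HolAt (Cm n) a y :=
  (contMDiffAt_iff_contMDiffAt_nhds (by simp)).1 ha

lemma tsymm {e : Chart n X} {x : X} (h : At e x) : Tendsto e.symm (𝓝 (e x)) (𝓝 x) := by
  have := e.continuousAt_symm h.mem_target
  rw [ContinuousAt, h.left_inv] at this
  exact this

lemma ev_of_symm {e : Chart n X} {x : X} (h : At e x) {p : X → Prop}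
    (hp : ∀ᶠ z in 𝓝 (e x), p (e.symm z)) : ∀ᶠ y in 𝓝 x, p y := by
  filter_upwards [(e.continuousAt h.2).eventually hp, e.open_source.mem_nhds h.2] with y hy hy'
  rwa [e.left_inv hy'] at hy

/-- `Jᵀ H J̄` for functions which are smooth near a point -/
lemma cHess_change [IsManifold 𝓘(ℂ, Cm n) ω X] {u : X → ℝ} {e e' : Chart n X} {x : X} (h : At e x)
    (h' : At e' x) (hu : ContDiffAt ℝ 2 (fun z => u (e'.symm z)) (e' x)) :
    cHess (fun y => u (e.symm y)) (e x) = (jacM e e' x).transpose *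
      cHess (fun y => u (e'.symm y)) (e' x) * (jacM e e' x).map (starRingEnd ℂ) := by
  have h1 : (fun y => u (e.symm y)) =ᶠ[𝓝 (e x)] fun y => u (e'.symm (e' (e.symm y))) := by
    filter_upwards [h.nhds_at h'] with z hz
    rw [hz.2.2.left_inv]
  have h2 : e' (e.symm (e x)) = e' x := by rw [h.left_inv]
  rw [cHess_congr h1]
  have := cHess_comp (τ := fun z => e' (e.symm z)) (f := fun y => u (e'.symm y)) (z := e x)
    (by rw [h2]; exact hu) (transition h h')
  rw [h2] at this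
  exact this

section Sec

variable {m N : ℕ} {S : Fin N → X → ℂ}

/-- local generators -/
structure Gen (S : Fin N → X → ℂ) (x : X) (b₀ : Fin N) (H : Fin N → X → ℂ) : Prop where
  hol : ∀ b, HolAt (Cm n) (H b) x
  eq : ∀ᶠ z in 𝓝 x, ∀ b, S b z = H b z * S b₀ z

lemma exists_gen (h : IsMoving n m S) (x : X) :
    ∃ (b₀ : Fin N) (H : Fin N → X → ℂ), Gen (n := n) S x b₀ H := by
  obtain ⟨b₀, hb⟩ := h.princ x
  choose H h1 h2 using hb
  exact ⟨b₀, H, h1, eventually_all.2 h2⟩

variable [IsManifold 𝓘(ℂ, Cm n) ω X]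

lemma coef_comp_holo (hs : ∀ b, IsPluri (n := n) m (S b)) {e : Chart n X} {x : X} (h : At e x)
    (b : Fin N) : AnalyticAt ℂ (fun z => coef m S e z b) (e x) :=
  (comp_cd (coef_holo hs h) b).analyticAt

lemma coef_eq_zero {e : Chart n X} {x : X} (h : At e x) {b : Fin N} :
    coef m S e (e x) b = 0 ↔ S b x = 0 := by
  simp only [coef, h.left_inv, div_eq_zero_iff]
  rw [or_iff_left (pow_ne_zero _ (dj_ne_zero h))]

/-- identity theorem -/
lemma not_ev_zero [ConnectedSpace X] (hs : ∀ b, IsPluri (n := n) m (S b))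
    (hne : ∃ b x, S b x ≠ 0) (x : X) : ¬ ∀ᶠ z in 𝓝 x, ∀ b, S b z = 0 := by
  intro hx
  set Z : Set X := {x | ∀ᶠ z in 𝓝 x, ∀ b, S b z = 0} with hZ
  have hZo : IsOpen Z := isOpen_iff_mem_nhds.2 fun y hy => by
    filter_upwards [eventually_eventually_nhds.2 hy] with z hz using hz
  have hZc : IsClosed Z := by
    rw [← closure_subset_iff_isClosed]
    intro y hy
    set e : Chart n X := chartAt (Cm n) y with he
    have hey : At e y := ⟨chart_mem_atlas _ _, mem_chart_source _ _⟩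
    have han : ∀ᶠ z in 𝓝 (e y), z ∈ e.target ∧ ∀ b, AnalyticAt ℂ (fun z => coef m S e z b) z := by
      filter_upwards [hey.nhds_target] with z hz
      refine ⟨hz, fun b => ?_⟩
      have := coef_comp_holo (m := m) hs (At.of_target hey.1 hz) b
      rwa [e.right_inv hz] at this
    obtain ⟨r, hr, hball⟩ := Metric.eventually_nhds_iff_ball.1 han
    have hU : e.source ∩ e ⁻¹' Metric.ball (e y) r ∈ 𝓝 y :=
      inter_mem (e.open_source.mem_nhds hey.2)
        ((e.continuousAt hey.2).preimage_mem_nhds (Metric.ball_mem_nhds _ hr))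
    obtain ⟨y₁, hy₁U, hy₁⟩ := mem_closure_iff_nhds.1 hy _ hU
    have hey₁ : At e y₁ := ⟨hey.1, hy₁U.1⟩
    have hz : ∀ b, EqOn (fun z => coef m S e z b) 0 (Metric.ball (e y) r) := by
      intro b
      refine AnalyticOnNhd.eqOn_zero_of_preconnected_of_eventuallyEq_zero
        (fun z hz => (hball z hz).2 b) (convex_ball _ _).isPreconnected hy₁U.2 ?_
      filter_upwards [(tsymm hey₁).eventually hy₁, hey₁.nhds_target] with z h1 h2
      have h3 := (coef_eq_zero (m := m) (S := S) (At.of_target hey.1 h2) (b := b)).2 (h1 b)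
      rwa [e.right_inv h2] at h3
    show ∀ᶠ z in 𝓝 y, ∀ b, S b z = 0
    filter_upwards [hU] with v hv b
    have h1 := hz b hv.2
    exact (coef_eq_zero (m := m) (⟨hey.1, hv.1⟩ : At e v)).1 h1
  have h1 : Z = univ := IsClopen.eq_univ ⟨hZc, hZo⟩ ⟨x, hx⟩
  obtain ⟨b, y, hb⟩ := hne
  have h2 : y ∈ Z := by rw [h1]; trivial
  exact hb ((show ∀ᶠ z in 𝓝 y, ∀ b, S b z = 0 from h2).self_of_nhds b)

/-- cancellation of the generator -/
lemma gen_cancel [ConnectedSpace X] (hs : IsMoving n m S) {x : X} {b₀ : Fin N}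
    {H : Fin N → X → ℂ} (hH : Gen (n := n) S x b₀ H) {f : X → ℂ} (hf : HolAt (Cm n) f x)
    (h : ∀ᶠ z in 𝓝 x, f z * S b₀ z = 0) : ∀ᶠ z in 𝓝 x, f z = 0 := by
  set e : Chart n X := chartAt (Cm n) x with he
  have hex : At e x := ⟨chart_mem_atlas _ _, mem_chart_source _ _⟩
  have h1 := Vale.Agent.P301.H508.zero_or (holAt_chart hex hf).analyticAt
    (coef_comp_holo (m := m) hs.sec hex b₀) (by
      filter_upwards [(tsymm hex).eventually h] with z hz
      show f (e.symm z) * (S b₀ (e.symm z) / _) = 0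
      rw [← mul_div_assoc, hz, zero_div])
  rcases h1 with h1 | h1
  · exact ev_of_symm hex h1
  · exfalso
    refine not_ev_zero hs.sec hs.ne x ?_
    have h2 : ∀ᶠ y in 𝓝 x, S b₀ y = 0 := by
      refine ev_of_symm hex ?_
      filter_upwards [h1, hex.nhds_target] with z hz hz2
      have h3 := coef_eq_zero (m := m) (S := S) (At.of_target hex.1 hz2) (b := b₀)
      rw [e.right_inv hz2] at h3
      exact h3.1 hz
    filter_upwards [hH.eq, h2] with z h3 h4 b
    rw [h3 b, h4, mul_zero]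

/-- the generator is a nonvanishing coordinate -/
lemma gen_one [ConnectedSpace X] (hs : IsMoving n m S) {x : X} {b₀ : Fin N}
    {H : Fin N → X → ℂ} (hH : Gen (n := n) S x b₀ H) : ∀ᶠ z in 𝓝 x, H b₀ z = 1 := by
  have h1 : HolAt (Cm n) (fun z => H b₀ z - 1) x := (hH.hol b₀).sub contMDiffAt_const
  have h2 := gen_cancel hs hH h1 (by
    filter_upwards [hH.eq] with z hz
    have := hz b₀
    rw [sub_mul, one_mul, ← this, sub_self])
  filter_upwards [h2] with z hz
  exact sub_eq_zero.1 hz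

lemma gen_ne_zero [ConnectedSpace X] (hs : IsMoving n m S) {x : X} {b₀ : Fin N}
    {H : Fin N → X → ℂ} (hH : Gen (n := n) S x b₀ H) : (fun b => H b x) ≠ 0 := by
  intro h
  have h1 := congrFun h b₀
  have h2 := (gen_one hs hH).self_of_nhds
  rw [show H b₀ x = 0 from h1] at h2
  exact zero_ne_one h2

/-- two systems of local generators differ by a unit -/
lemma gen_unit [ConnectedSpace X] (hs : IsMoving n m S) {x : X} {b₁ b₂ : Fin N}
    {H₁ H₂ : Fin N → X → ℂ} (h₁ : Gen (n := n) S x b₁ H₁) (h₂ : Gen (n := n) S x b₂ H₂) :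
    ∃ f : X → ℂ, HolAt (Cm n) f x ∧ f x ≠ 0 ∧ ∀ᶠ z in 𝓝 x, ∀ b, H₁ b z = f z * H₂ b z := by
  have key : ∀ b, ∀ᶠ z in 𝓝 x, H₁ b z = H₁ b₂ z * H₂ b z := by
    intro b
    have h3 : HolAt (Cm n) (fun z => H₁ b z - H₁ b₂ z * H₂ b z) x :=
      (h₁.hol b).sub ((h₁.hol b₂).mul (h₂.hol b))
    have h4 := gen_cancel hs h₁ h3 (by
      filter_upwards [h₁.eq, h₂.eq] with z e1 e2
      have a1 := e1 b
      have a2 := e2 b
      have a3 := e1 b₂
      rw [sub_mul, ← a1, mul_right_comm, ← a3, mul_comm, ← a2, sub_self])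
    filter_upwards [h4] with z hz
    exact sub_eq_zero.1 hz
  refine ⟨H₁ b₂, h₁.hol b₂, fun h0 => ?_, eventually_all.2 key⟩
  have h5 := (key b₁).self_of_nhds
  rw [h0, zero_mul, (gen_one hs h₁).self_of_nhds] at h5
  exact one_ne_zero h5

/-- local generators at nearby points -/
lemma gen_ev {x : X} {b₀ : Fin N} {H : Fin N → X → ℂ} (hH : Gen (n := n) S x b₀ H) :
    ∀ᶠ y in 𝓝 x, Gen (n := n) S y b₀ H := by
  filter_upwards [eventually_all.2 fun b => holAt_ev (hH.hol b), hH.eq.eventually_nhds]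
    with y h1 h2
  exact ⟨h1, h2⟩

lemma vec_holo {H : Fin N → X → ℂ} {e : Chart n X} {x : X} (h : At e x)
    (hH : ∀ b, HolAt (Cm n) (H b) x) :
    ContDiffAt ℂ ω (fun z b => H b (e.symm z)) (e x) :=
  contDiffAt_pi.2 fun b => holAt_chart h (hH b)

/-- the Fubini–Study form of proportional coordinates -/
lemma fsM_smul {F G : Cm n → Fin N → ℂ} {f : Cm n → ℂ} {z : Cm n} (hG : ContDiffAt ℂ ω G z)
    (hG0 : G z ≠ 0) (hf : ContDiffAt ℂ ω f z) (hf0 : f z ≠ 0)
    (h : ∀ᶠ y in 𝓝 z, F y = f y • G y) : fsM F z = fsM G z := by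
  unfold fsM
  have h1 : (fun y => Real.log (nsq (F y))) =ᶠ[𝓝 z]
      fun y => Real.log (‖f y‖ ^ 2) + Real.log (nsq (G y)) := by
    filter_upwards [h, hf.continuousAt.eventually_ne hf0, hG.continuousAt.eventually_ne hG0]
      with y e1 e2 e3
    rw [e1, nsq_smul, Real.log_mul (pow_ne_zero 2 (norm_ne_zero_iff.2 e2)) (nsq_pos e3).ne']
  have h2 : ContDiffAt ℝ 2 (fun y => Real.log (‖f y‖ ^ 2)) z := by
    have hd : ContDiffAt ℝ 2 f z := (hf.restrict_scalars ℝ).of_le (by exact le_top)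
    exact (hd.norm_sq ℝ).log (pow_ne_zero 2 (norm_ne_zero_iff.2 hf0))
  rw [cHess_congr h1, cHess_add h2 ((smooth_log_nsq hG hG0).of_le
    (by exact WithTop.coe_le_coe.2 le_top)), cHess_log_norm_sq hf hf0, zero_add]

/-- a form with local potentials is closed -/
theorem isClosedForm_of_pot {θ : D.FormM n X} (h : ∀ x, ∃ u : X → ℝ,
    (∀ e : Chart n X, At e x → ContDiffAt ℝ ∞ (fun z => u (e.symm z)) (e x)) ∧
    ∀ᶠ y in 𝓝 x, ∀ e : Chart n X, At e y → θ e (e y) = cHess (fun z => u (e.symm z)) (e y)) :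
    IsClosedForm θ := by
  have key : ∀ x (u : X → ℝ), (∀ᶠ y in 𝓝 x, ∀ e : Chart n X, At e y →
      θ e (e y) = cHess (fun z => u (e.symm z)) (e y)) → ∀ e : Chart n X, At e x →
      (fun z => θ e z) =ᶠ[𝓝 (e x)] fun z => cHess (fun y => u (e.symm y)) z := by
    intro x u hu e hx
    filter_upwards [(tsymm hx).eventually hu, hx.nhds_target] with z h1 h2
    have := h1 e (At.of_target hx.1 h2)
    rwa [e.right_inv h2] at this
  refine ⟨fun e x hx i j => ?_, fun e e' x hx hx' => ?_, fun e x hx i k l => ?_⟩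
  · obtain ⟨u, h1, h2⟩ := h x
    refine (INT.smooth_cHess (h1 e hx) i j).congr_of_eventuallyEq ?_
    filter_upwards [key x u h2 e hx] with z hz
    rw [hz]
  · obtain ⟨u, h1, h2⟩ := h x
    rw [h2.self_of_nhds e hx, h2.self_of_nhds e' hx']
    exact cHess_change hx hx' ((h1 e' hx').of_le (by exact WithTop.coe_le_coe.2 le_top))
  · obtain ⟨u, h1, h2⟩ := h x
    have h3 := key x u h2 e hx
    have h4 : ∀ p q, (fun z => θ e z p q) =ᶠ[𝓝 (e x)] fun z =>
        cHess (fun y => u (e.symm y)) z p q := by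
      intro p q
      filter_upwards [h3] with z hz
      rw [hz]
    rw [INT.dz_congr (h4 k l), INT.dz_congr (h4 i l)]
    exact INT.cHess_closed (h1 e hx) i k l

/-- the curvature form of the singular metric -/
def theta (m : ℕ) (H : X → Fin N → X → ℂ) : D.FormM n X := fun e z =>
  (((m : ℝ)⁻¹ : ℝ) : ℂ) • fsM (fun y b => H (e.symm z) b (e.symm y)) z

lemma theta_at {H : X → Fin N → X → ℂ} {e : Chart n X} {x : X} (h : At e x) :
    theta m H e (e x) = (((m : ℝ)⁻¹ : ℝ) : ℂ) • fsM (fun y b => H x b (e.symm y)) (e x) := by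
  unfold theta
  rw [h.left_inv]

/-- the form in terms of any system of local generators -/
lemma theta_eq [ConnectedSpace X] (hs : IsMoving n m S) {bb : X → Fin N} {H : X → Fin N → X → ℂ}
    (hH : ∀ x, Gen (n := n) S x (bb x) (H x)) {e : Chart n X} {x : X} (h : At e x) {b₀ : Fin N}
    {H' : Fin N → X → ℂ} (hH' : Gen (n := n) S x b₀ H') :
    theta m H e (e x) = (((m : ℝ)⁻¹ : ℝ) : ℂ) • fsM (fun y b => H' b (e.symm y)) (e x) := by
  rw [theta_at h]
  congr 1
  obtain ⟨f, hf, hf0, hfe⟩ := gen_unit hs (hH x) hH'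
  refine fsM_smul (vec_holo h hH'.hol) ?_ (holAt_chart h hf) (by rw [h.left_inv]; exact hf0) ?_
  · rw [h.left_inv]
    exact gen_ne_zero hs hH'
  · filter_upwards [(tsymm h).eventually hfe] with z hz
    funext b
    exact hz b

lemma theta_closed [ConnectedSpace X] (hs : IsMoving n m S) {bb : X → Fin N}
    {H : X → Fin N → X → ℂ} (hH : ∀ x, Gen (n := n) S x (bb x) (H x)) :
    IsClosedForm (theta (n := n) m H) := by
  refine isClosedForm_of_pot fun x => ⟨fun y => (m : ℝ)⁻¹ * Real.log (nsq fun b => H x b y),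
    fun e hx => ?_, ?_⟩
  · refine contDiffAt_const.mul (smooth_log_nsq (vec_holo hx (hH x).hol) ?_)
    rw [hx.left_inv]
    exact gen_ne_zero hs (hH x)
  · filter_upwards [gen_ev (hH x)] with y hy e hey
    rw [theta_eq hs hH hey hy]
    have h0 : (fun z b => H x b (e.symm z)) (e y) ≠ 0 := by
      show (fun b => H x b (e.symm (e y))) ≠ 0
      rw [hey.left_inv]
      exact gen_ne_zero hs hy
    exact (cHess_const_mul _ ((smooth_log_nsq (vec_holo hey hy.hol) h0).of_le
      (by exact WithTop.coe_le_coe.2 le_top))).symm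

lemma theta_psd [ConnectedSpace X] (hs : IsMoving n m S) {bb : X → Fin N}
    {H : X → Fin N → X → ℂ} (hH : ∀ x, Gen (n := n) S x (bb x) (H x)) {e : Chart n X} {x : X}
    (h : At e x) : (theta (n := n) m H e (e x)).PosSemidef := by
  rw [theta_at h]
  have h0 : (fun z b => H x b (e.symm z)) (e x) ≠ 0 := by
    show (fun b => H x b (e.symm (e x))) ≠ 0
    rw [h.left_inv]
    exact gen_ne_zero hs (hH x)
  exact (fsM_psd (vec_holo h (hH x).hol) h0).smul
    (by exact_mod_cast inv_nonneg.2 (Nat.cast_nonneg m))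

/-- off the base locus -/
lemma theta_coef [ConnectedSpace X] (hs : IsMoving n m S) {bb : X → Fin N}
    {H : X → Fin N → X → ℂ} (hH : ∀ x, Gen (n := n) S x (bb x) (H x)) {e : Chart n X} {x : X}
    (h : At e x) (hx : ∃ b, S b x ≠ 0) :
    theta (n := n) m H e (e x) = (((m : ℝ)⁻¹ : ℝ) : ℂ) • fsM (coef m S e) (e x) := by
  rw [theta_at h]
  congr 1
  symm
  have hb : S (bb x) x ≠ 0 := by
    intro h0
    obtain ⟨b, hb⟩ := hx
    apply hb
    rw [(hH x).eq.self_of_nhds b, h0, mul_zero]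
  refine fsM_smul (f := fun z => coef m S e z (bb x)) (vec_holo h (hH x).hol) ?_
    (comp_cd (coef_holo hs.sec h) _) ?_ ?_
  · rw [h.left_inv]
    exact gen_ne_zero hs (hH x)
  · intro h0
    exact hb ((coef_eq_zero h).1 h0)
  · filter_upwards [(tsymm h).eventually (hH x).eq] with z hz
    funext b
    show S b (e.symm z) / _ = S (bb x) (e.symm z) / _ * H x b (e.symm z)
    rw [hz b]
    ring

/-! ### the metrics -/

/-- `log det χ` is a metric on `K_X` -/
lemma canonical_ldet {χ : D.FormM n X} (hχ : IsHermitian χ) :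
    IsCanonicalMetric fun e z => Real.log (χ e z).det.re where
  smooth e x hx := (contDiffAt_re (Vale.Agent.P272.K.contDiffAt_det (hχ.smooth e x hx))).log
    (INT.posDef_det_re (hχ.posDef e x hx)).1.ne'
  change e e' x hx hx' := log_det_change hχ hx hx'

/-- `∑ |S b|²` with respect to the metric `φ` -/
def rho (φ : Chart n X → Cm n → ℝ) (m : ℕ) (S : Fin N → X → ℂ) (x : X) : ℝ :=
  nsq (coef m S (chartAt (Cm n) x) (chartAt (Cm n) x x)) *
    Real.exp (-(m * φ (chartAt (Cm n) x) (chartAt (Cm n) x x)))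

variable {φ : Chart n X → Cm n → ℝ}

lemma rho_eq (hφ : IsCanonicalMetric φ) {e : Chart n X} {x : X} (h : At e x) :
    rho φ m S x = nsq (coef m S e (e x)) * Real.exp (-(m * φ e (e x))) := by
  set c : Chart n X := chartAt (Cm n) x with hc
  have hcx : At c x := ⟨chart_mem_atlas _ _, mem_chart_source _ _⟩
  show nsq (coef m S c (c x)) * Real.exp (-(m * φ c (c x))) = _
  have h1 := jacM_det_ne_zero hcx h
  have h3 : (0 : ℝ) < ‖(jacM c e x).det‖ ^ 2 := pow_pos (norm_pos_iff.2 h1) 2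
  rw [coef_change hcx h, nsq_smul, hφ.change c e x hcx h]
  have e1 : -((m : ℝ) * (φ e (e x) + Real.log (‖(jacM c e x).det‖ ^ 2))) =
      -(m * φ e (e x)) + -(m * Real.log (‖(jacM c e x).det‖ ^ 2)) := by ring
  have e2 : Real.exp (-(m * Real.log (‖(jacM c e x).det‖ ^ 2))) =
      ((‖(jacM c e x).det‖ ^ 2) ^ m)⁻¹ := by
    rw [Real.exp_neg, Real.exp_nat_mul, Real.exp_log h3]
  rw [e1, Real.exp_add, e2]
  have e3 : ‖(jacM c e x).det ^ m‖ ^ 2 = (‖(jacM c e x).det‖ ^ 2) ^ m := by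
    rw [norm_pow, ← pow_mul, ← pow_mul, mul_comm]
  rw [e3]
  have e4 : (‖(jacM c e x).det‖ ^ 2) ^ m ≠ 0 := (pow_pos h3 m).ne'
  field_simp

lemma rho_nonneg (x : X) : 0 ≤ rho φ m S x := mul_nonneg (nsq_nonneg _) (Real.exp_pos _).le

lemma rho_zero_iff (x : X) : rho φ m S x = 0 ↔ ∀ b, S b x = 0 := by
  have hcx : At (chartAt (Cm n) x : Chart n X) x := ⟨chart_mem_atlas _ _, mem_chart_source _ _⟩
  rw [rho, mul_eq_zero, or_iff_left (Real.exp_pos _).ne', nsq_eq_zero, funext_iff]
  exact forall_congr' fun b => coef_eq_zero hcx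

lemma rho_ev (hφ : IsCanonicalMetric φ) {e : Chart n X} {x : X} (h : At e x) :
    ∀ᶠ z in 𝓝 (e x), rho φ m S (e.symm z) = nsq (coef m S e z) * Real.exp (-(m * φ e z)) := by
  filter_upwards [h.nhds_target] with z hz
  rw [rho_eq hφ (At.of_target h.1 hz), e.right_inv hz]

lemma rho_smooth (hφ : IsCanonicalMetric φ) (hs : ∀ b, IsPluri (n := n) m (S b)) :
    SmoothFn (n := n) (rho φ m S) := by
  intro e x h
  refine ContDiffAt.congr_of_eventuallyEq ?_ (rho_ev hφ h)
  exact (smooth_nsq (coef_holo hs h)).mul (contDiffAt_const.mul (hφ.smooth e x h)).neg.exp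

/-- the regularised metrics in charts -/
lemma phiD_ev (hm : 0 < m) (hφ : IsCanonicalMetric φ) {δ : ℝ} (hδ : 0 < δ) {e : Chart n X} {x : X}
    (h : At e x) : phiD φ m (rho φ m S) δ e =ᶠ[𝓝 (e x)]
      fun z => (m : ℝ)⁻¹ * Real.log (uu (coef m S e) (φ e) m δ z) := by
  have hm' : (m : ℝ) ≠ 0 := by exact_mod_cast hm.ne'
  filter_upwards [rho_ev (S := S) (m := m) hφ h] with z hz
  have h1 : rho φ m S (e.symm z) + δ =
      uu (coef m S e) (φ e) m δ z * Real.exp (-(m * φ e z)) := by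
    rw [hz, uu, add_mul, mul_assoc δ, ← Real.exp_add, add_neg_cancel, Real.exp_zero, mul_one]
  rw [phiD, h1, Real.log_mul (uu_pos hδ z).ne' (Real.exp_pos _).ne', Real.log_exp]
  field_simp
  ring

/-- **the curvature of the regularised metrics** -/
lemma curvGe (hm : 0 < m) (hφ : IsCanonicalMetric φ) (hs : ∀ b, IsPluri (n := n) m (S b))
    {χ : D.FormM n X} {C : ℝ}
    (hC : ∀ e x, At e x → ((C : ℂ) • χ e (e x) - -cHess (φ e) (e x)).PosSemidef) :
    CurvGe φ m (rho φ m S) C χ := by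
  intro δ hδ e x h
  have hc := coef_holo hs h
  have hφe := hφ.smooth e x h
  have hmR : (m : ℝ) ≠ 0 := by exact_mod_cast hm.ne'
  have h1 : cHess (phiD φ m (rho φ m S) δ e) (e x) = (((m : ℝ)⁻¹ : ℝ) : ℂ) •
      cHess (fun z => Real.log (uu (coef m S e) (φ e) m δ z)) (e x) := by
    rw [cHess_congr (phiD_ev hm hφ hδ h)]
    exact cHess_const_mul _ (((smooth_uu hc hφe).log (uu_pos hδ _).ne').of_le
      (by exact WithTop.coe_le_coe.2 le_top))
  have hu0 : 0 < uu (coef m S e) (φ e) m δ (e x) := uu_pos hδ _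
  have hexp : 0 < Real.exp (m * φ e (e x)) := Real.exp_pos _
  have hρ0 : 0 < rho φ m S x + δ := add_pos_of_nonneg_of_pos (rho_nonneg x) hδ
  have h2 : δ * Real.exp (m * φ e (e x)) / uu (coef m S e) (φ e) m δ (e x) =
      δ / (rho φ m S x + δ) := by
    rw [div_eq_div_iff hu0.ne' hρ0.ne', rho_eq hφ h, uu]
    have h3 : Real.exp (m * φ e (e x)) * Real.exp (-(m * φ e (e x))) = 1 := by
      rw [← Real.exp_add, add_neg_cancel, Real.exp_zero]
    linear_combination (δ * nsq (coef m S e (e x))) * h3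
  set κ : ℝ := δ / (rho φ m S x + δ) with hκ
  have hκ0 : 0 ≤ κ := (div_pos hδ hρ0).le
  have h3 := (curv_uu hc hφe hδ (m := m)).smul
    (show (0 : ℂ) ≤ (((m : ℝ)⁻¹ : ℝ) : ℂ) by exact_mod_cast inv_nonneg.2 (Nat.cast_nonneg m))
  have h4 := (hC e x h).smul (show (0 : ℂ) ≤ ((κ : ℝ) : ℂ) by exact_mod_cast hκ0)
  have h5 := h3.add h4
  convert h5 using 1
  rw [h1, h2, smul_sub, smul_sub, smul_neg, smul_smul, smul_smul]
  have e1 : (((m : ℝ)⁻¹ : ℝ) : ℂ) * (((κ * m : ℝ)) : ℂ) = (κ : ℂ) := by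
    rw [← Complex.ofReal_mul]
    congr 1
    field_simp
  have e2 : (((C * κ : ℝ)) : ℂ) = (κ : ℂ) * (C : ℂ) := by push_cast; ring
  rw [e1, e2]
  abel

end Sec

/-- **GM-F.** -/
theorem formPart : FormPart := by
  intro n X _ _ _ _ _ _ χ hχ m N S hs
  classical
  have hχh : IsHermitian χ := hχ.toIsHermitian
  set φ : Chart n X → Cm n → ℝ := fun e z => Real.log (χ e z).det.re with hφd
  have hφ : IsCanonicalMetric φ := canonical_ldet hχh
  -- the constant
  have hcl := INT.isClosedForm_canonical hφ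
  obtain ⟨C, hC0, hC⟩ := Vale.Agent.P272.K.AMP.Main.exists_comparison' (b := fun e z => -cHess (φ e) z) hχh
    (fun e x h i j => (hcl.smooth e x h i j).neg) (fun e e' x h h' => by
      show -cHess (φ e) (e x) = _ * -cHess (φ e') (e' x) * _
      have h1 : cHess (φ e) (e x) = (jacM e e' x).transpose * cHess (φ e') (e' x) *
        (jacM e e' x).map (starRingEnd ℂ) := hcl.form e e' x h h'
      rw [h1, Matrix.mul_neg, Matrix.neg_mul]) (fun e x h => by
      have h1 : (cHess (φ e) (e x)).IsHermitian :=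
        C2.cHess_isHermitian ((hφ.smooth e x h).of_le (by exact WithTop.coe_le_coe.2 le_top))
      exact h1.neg)
  choose bb H hH using fun x => exists_gen hs x
  refine ⟨φ, rho φ m S, C, theta m H, hφ, rho_smooth hφ hs.sec, rho_nonneg, rho_zero_iff,
    curvGe hs.pos hφ hs.sec hC, theta_closed hs hH, fun e x h => theta_psd hs hH h,
    fun e x h hρ => ?_, fun e x h => ?_, fun e x h b₀ hb₀ => ?_, fun e x h b₀ hb₀ v => ?_⟩
  · have hne : ∃ b, S b x ≠ 0 := by
      by_contra hcon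
      push Not at hcon
      rw [(rho_zero_iff x).2 hcon] at hρ
      exact lt_irrefl _ hρ
    rw [theta_coef hs hH h hne]
    have hc := coef_holo hs.sec h
    have hc0 : coef m S e (e x) ≠ 0 := by
      obtain ⟨b, hb⟩ := hne
      exact fun h0 => hb ((coef_eq_zero h).1 (congrFun h0 b))
    have hmR : (m : ℝ) ≠ 0 := by exact_mod_cast hs.pos.ne'
    have h1 : phiD φ m (rho φ m S) 0 e =ᶠ[𝓝 (e x)]
        fun z => (m : ℝ)⁻¹ * Real.log (nsq (coef m S e z)) := by
      filter_upwards [rho_ev (S := S) (m := m) hφ h, hc.continuousAt.eventually_ne hc0] with z hz hz0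
      rw [phiD, hz, add_zero, Real.log_mul (nsq_pos hz0).ne' (Real.exp_pos _).ne', Real.log_exp]
      field_simp
      ring
    rw [cHess_congr h1]
    exact (cHess_const_mul _ ((smooth_log_nsq hc hc0).of_le
      (by exact WithTop.coe_le_coe.2 le_top))).symm
  · rw [rho_eq hφ h, mul_assoc, ← Real.exp_add, neg_add_cancel, Real.exp_zero, mul_one]
  · have hc := coef_holo hs.sec h
    have hb0 : coef m S e (e x) b₀ ≠ 0 := fun h0 => hb₀ ((coef_eq_zero h).1 h0)
    rw [theta_coef hs hH h ⟨b₀, hb₀⟩]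
    congr 1
    have hG : ContDiffAt ℂ ω (fun z b => S b (e.symm z) / S b₀ (e.symm z)) (e x) := by
      refine contDiffAt_pi.2 fun b => ((comp_cd hc b).div (comp_cd hc b₀)
        hb0).congr_of_eventuallyEq ?_
      filter_upwards [h.nhds_at h] with z hz
      simp only [coef]
      exact (div_div_div_cancel_right₀ (pow_ne_zero _ (dj_ne_zero hz.2.1)) _ _).symm
    refine fsM_smul (f := fun z => coef m S e z b₀) hG (fun h0 => ?_) (comp_cd hc b₀) hb0 ?_
    · have h1 := congrFun h0 b₀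
      simp only [h.left_inv, Pi.zero_apply, div_self hb₀] at h1
      exact one_ne_zero h1
    · filter_upwards [h.nhds_at h, (comp_cd hc b₀).continuousAt.eventually_ne hb0] with z hz hz0
      funext b
      have h1 : S b₀ (e.symm z) ≠ 0 := by
        intro h0
        exact hz0 (by simp only [coef, h0, zero_div])
      show S b (e.symm z) / dj e (e.symm z) ^ m =
        S b₀ (e.symm z) / dj e (e.symm z) ^ m * (S b (e.symm z) / S b₀ (e.symm z))
      field_simp
  · have hc := coef_holo hs.sec h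
    have hb0 : coef m S e (e x) b₀ ≠ 0 := fun h0 => hb₀ ((coef_eq_zero h).1 h0)
    have hc0 : coef m S e (e x) ≠ 0 := fun h0 => hb0 (congrFun h0 b₀)
    rw [theta_coef hs hH h ⟨b₀, hb₀⟩]
    have hm' : ((((m : ℝ)⁻¹ : ℝ) : ℂ)) ≠ 0 := by
      have : (m : ℝ) ≠ 0 := by exact_mod_cast hs.pos.ne'
      exact_mod_cast inv_ne_zero this
    have h1 : (∀ j, ∑ i, v i * ((((m : ℝ)⁻¹ : ℝ) : ℂ) • fsM (coef m S e) (e x)) i j = 0) ↔
        ∀ j, ∑ i, v i * fsM (coef m S e) (e x) i j = 0 := by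
      refine forall_congr' fun j => ?_
      have h2 : ∑ i, v i * ((((m : ℝ)⁻¹ : ℝ) : ℂ) • fsM (coef m S e) (e x)) i j =
          (((m : ℝ)⁻¹ : ℝ) : ℂ) * ∑ i, v i * fsM (coef m S e) (e x) i j := by
        rw [Finset.mul_sum]
        refine Finset.sum_congr rfl fun i _ => ?_
        rw [Matrix.smul_apply, smul_eq_mul]
        ring
      rw [h2, mul_eq_zero, or_iff_right hm']
    rw [h1, fsM_ker hc hc0, fderiv_quot hc hb0]
    refine forall_congr' fun b => ?_
    have h3 : (fun y => coef m S e y b / coef m S e y b₀) =ᶠ[𝓝 (e x)]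
        fun z => S b (e.symm z) / S b₀ (e.symm z) := by
      filter_upwards [h.nhds_at h] with z hz
      simp only [coef]
      exact div_div_div_cancel_right₀ (pow_ne_zero _ (dj_ne_zero hz.2.1)) _ _
    rw [h3.fderiv_eq]

end Vale.Agent.P281.H949.GM
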