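import Vale.Agent.P281.H949.SA.M

/-!
# P281, theorem GM: the curvature of `log (∑ |c b|² + δ exp (m φ))`
-/

open scoped Manifold ContDiff Topology ComplexOrder
open Set Filter Vale.Agent.P272.K

set_option linter.all false

noncomputable section

namespace Vale.Agent.P281.H949.GM

open Vale.Agent.P281.H949.SA Vale.Agent.P299.H223

variable {n M N : ℕ}

/-- affine functions with given values and derivatives at `z` -/
def aff (z : Cm n) (V : Fin M → ℂ) (A : Fin n → Fin M → ℂ) (y : Cm n) (i : Fin M) : ℂ :=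
  V i + ∑ j, A j i * (y j - z j)

lemma aff_cd (z : Cm n) (V : Fin M → ℂ) (A : Fin n → Fin M → ℂ) :
    ContDiffAt ℂ ω (aff z V A) z := by
  unfold aff
  fun_prop

lemma aff_self (z : Cm n) (V : Fin M → ℂ) (A : Fin n → Fin M → ℂ) : aff z V A z = V := by
  funext i
  simp [aff]

lemma dz_aff (z : Cm n) (V : Fin M → ℂ) (A : Fin n → Fin M → ℂ) (j : Fin n) (i : Fin M) :
    dz j (fun y => aff z V A y i) z = A j i := by
  have hd : ∀ k : Fin n, HasFDerivAt (fun y : Cm n => y k)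
      (ContinuousLinearMap.proj (R := ℂ) (φ := fun _ : Fin n => ℂ) k) z := fun k =>
    (ContinuousLinearMap.proj (R := ℂ) (φ := fun _ : Fin n => ℂ) k).hasFDerivAt
  have h1 : HasFDerivAt (fun y => aff z V A y i)
      (∑ k, A k i • ContinuousLinearMap.proj (R := ℂ) (φ := fun _ : Fin n => ℂ) k) z := by
    unfold aff
    have h2 : HasFDerivAt (fun y : Cm n => ∑ k, A k i * (y k - z k))
        (∑ k, A k i • ContinuousLinearMap.proj (R := ℂ) (φ := fun _ : Fin n => ℂ) k) z :=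
      HasFDerivAt.fun_sum fun k _ => ((hd k).sub_const (z k)).const_mul (A k i)
    exact h2.const_add (V i)
  rw [dz_of_holo h1.differentiableAt, h1.fderiv]
  rw [ContinuousLinearMap.sum_apply, Finset.sum_eq_single j]
  · simp
  · intro k _ hk
    simp [Pi.single_apply, hk]
  · intro h; exact absurd (Finset.mem_univ _) h

/-- the Lagrange identity: `|V|² A A^* - (A V)(A V)^* ≥ 0` -/
lemma lagrange (V : Fin M → ℂ) (hV : V ≠ 0) (A : Fin n → Fin M → ℂ) :
    (Matrix.of fun j k => ((nsq V : ℝ) : ℂ)⁻¹ * (∑ i, A j i * cj (A k i)) -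
      (((nsq V : ℝ) : ℂ) ^ 2)⁻¹ * ((∑ i, A j i * cj (V i)) * (∑ i, V i * cj (A k i))) :
      Matrix (Fin n) (Fin n) ℂ).PosSemidef := by
  have hF := aff_cd (0 : Cm n) V A
  have h0 : aff (0 : Cm n) V A 0 ≠ 0 := by rw [aff_self]; exact hV
  have h1 := fsM_psd hF h0
  have h2 : fsM (aff (0 : Cm n) V A) 0 = Matrix.of fun j k =>
      ((nsq V : ℝ) : ℂ)⁻¹ * (∑ i, A j i * cj (A k i)) -
      (((nsq V : ℝ) : ℂ) ^ 2)⁻¹ * ((∑ i, A j i * cj (V i)) * (∑ i, V i * cj (A k i))) := by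
    ext j k
    rw [fsM_apply hF h0, Matrix.of_apply]
    simp only [dz_aff, aff_self]
  rwa [h2] at h1

/-- the same with one more component -/
lemma lagrange' (V : Fin N → ℂ) {E : ℝ} (hE : 0 < E) (A : Fin n → Fin N → ℂ) (q : Fin n → ℂ) :
    (Matrix.of fun j k => (((nsq V + E : ℝ)) : ℂ)⁻¹ * ((∑ i, A j i * cj (A k i)) +
        E * (q j * cj (q k))) -
      ((((nsq V + E : ℝ)) : ℂ) ^ 2)⁻¹ * (((∑ i, A j i * cj (V i)) + E * q j) *
        ((∑ i, V i * cj (A k i)) + E * cj (q k))) : Matrix (Fin n) (Fin n) ℂ).PosSemidef := by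
  set s : ℂ := ((√E : ℝ) : ℂ) with hs
  have hs2 : s * s = E := by
    rw [hs, ← Complex.ofReal_mul, Real.mul_self_sqrt hE.le]
  have hsc : cj s = s := Complex.conj_ofReal _
  set V' : Fin (N + 1) → ℂ := Fin.snoc V s with hV'
  set A' : Fin n → Fin (N + 1) → ℂ := fun j => Fin.snoc (A j) (s * q j) with hA'
  have hn : nsq V' = nsq V + E := by
    rw [nsq, Fin.sum_univ_castSucc, nsq]
    congr 1
    · exact Finset.sum_congr rfl fun i _ => by rw [hV', Fin.snoc_castSucc]
    · rw [hV', Fin.snoc_last, hs, Complex.norm_real, Real.norm_eq_abs, sq_abs, Real.sq_sqrt hE.le]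
  have hV0 : V' ≠ 0 := by
    intro h
    have h1 : nsq V' = 0 := nsq_eq_zero.2 h
    rw [hn] at h1
    have := nsq_nonneg V
    linarith
  have h1 := lagrange V' hV0 A'
  rw [hn] at h1
  convert h1 using 1
  ext j k
  simp only [Matrix.of_apply]
  have e1 : (∑ i, A' j i * cj (A' k i)) = (∑ i, A j i * cj (A k i)) + E * (q j * cj (q k)) := by
    rw [Fin.sum_univ_castSucc]
    simp only [hA', Fin.snoc_castSucc, Fin.snoc_last]
    have : cj (s * q k) = s * cj (q k) := by
      show (starRingEnd ℂ) (s * q k) = _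
      rw [map_mul]
      exact congrArg (· * _) hsc
    rw [this, ← hs2]
    ring
  have e2 : (∑ i, A' j i * cj (V' i)) = (∑ i, A j i * cj (V i)) + E * q j := by
    rw [Fin.sum_univ_castSucc]
    simp only [hA', hV', Fin.snoc_castSucc, Fin.snoc_last, hsc]
    rw [← hs2]
    ring
  have e3 : (∑ i, V' i * cj (A' k i)) = (∑ i, V i * cj (A k i)) + E * cj (q k) := by
    rw [Fin.sum_univ_castSucc]
    simp only [hA', hV', Fin.snoc_castSucc, Fin.snoc_last]
    have : cj (s * q k) = s * cj (q k) := by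
      show (starRingEnd ℂ) (s * q k) = _
      rw [map_mul]
      exact congrArg (· * _) hsc
    rw [this, ← hs2]
    ring
  rw [e1, e2, e3]

section curv

variable {c : Cm n → Fin N → ℂ} {φ : Cm n → ℝ} {z : Cm n} {m : ℕ} {δ : ℝ}

/-- `|c|² + δ exp (m φ)` -/
def uu (c : Cm n → Fin N → ℂ) (φ : Cm n → ℝ) (m : ℕ) (δ : ℝ) (y : Cm n) : ℝ :=
  nsq (c y) + δ * Real.exp (m * φ y)

lemma uu_pos (hδ : 0 < δ) (y : Cm n) : 0 < uu c φ m δ y :=
  add_pos_of_nonneg_of_pos (nsq_nonneg _) (by positivity)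

lemma smooth_uu (hc : ContDiffAt ℂ ω c z) (hφ : ContDiffAt ℝ ∞ φ z) :
    ContDiffAt ℝ ∞ (uu c φ m δ) z :=
  (smooth_nsq hc).add (contDiffAt_const.mul (contDiffAt_const.mul hφ).exp)

/-- **Curvature.** -/
theorem curv_uu (hc : ContDiffAt ℂ ω c z) (hφ : ContDiffAt ℝ ∞ φ z) (hδ : 0 < δ) :
    (cHess (fun y => Real.log (uu c φ m δ y)) z -
      (((δ * Real.exp (m * φ z) / uu c φ m δ z * m : ℝ)) : ℂ) • cHess φ z).PosSemidef := by
  set E : ℝ := δ * Real.exp (m * φ z) with hE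
  have hE0 : 0 < E := by positivity
  have hφ2 : ContDiffAt ℝ 2 φ z := hφ.of_le (by exact WithTop.coe_le_coe.2 le_top)
  have hφd : DifferentiableAt ℝ φ z := hφ2.differentiableAt (by norm_num)
  have hN2 : ContDiffAt ℝ 2 (fun y => nsq (c y)) z :=
    (smooth_nsq hc).of_le (by exact WithTop.coe_le_coe.2 le_top)
  have hψ : ∀ s : ℝ, HasDerivAt (fun t : ℝ => δ * Real.exp (m * t))
      (m * (δ * Real.exp (m * s))) s := fun s => by
    have h1 : HasDerivAt (fun t : ℝ => (m : ℝ) * t) m s := by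
      simpa using (hasDerivAt_id s).const_mul (m : ℝ)
    have h2 : HasDerivAt (fun t : ℝ => δ * Real.exp (m * t)) (δ * (Real.exp (m * s) * m)) s :=
      (h1.exp).const_mul δ
    have h3 : (m : ℝ) * (δ * Real.exp (m * s)) = δ * (Real.exp (m * s) * m) := by ring
    rw [h3]
    exact h2
  have hψ₁ : ∀ s : ℝ, HasDerivAt (fun t : ℝ => m * (δ * Real.exp (m * t)))
      (m * (m * (δ * Real.exp (m * s)))) s := fun s => (hψ s).const_mul (m : ℝ)
  have hE2 : ContDiffAt ℝ 2 (fun y => δ * Real.exp (m * φ y)) z :=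
    contDiffAt_const.mul (contDiffAt_const.mul hφ2).exp
  have hu2 : ContDiffAt ℝ 2 (uu c φ m δ) z := hN2.add hE2
  -- the derivatives
  have d1 : ∀ j, dz j (fun y => ((δ * Real.exp (m * φ y) : ℝ) : ℂ)) z =
      E * ((m : ℂ) * dz j (fun y => (φ y : ℂ)) z) := fun j => by
    rw [C2.dz_comp_real (ψ := fun t => δ * Real.exp (m * t)) j (hψ (φ z)) hφd]
    push_cast [hE]
    ring
  have d2 : ∀ k, dzb k (fun y => ((δ * Real.exp (m * φ y) : ℝ) : ℂ)) z =
      E * cj ((m : ℂ) * dz k (fun y => (φ y : ℂ)) z) := fun k => by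
    rw [C2.dzb_comp_real (ψ := fun t => δ * Real.exp (m * t)) k (hψ (φ z)) hφd, C2.dzb_real k hφd]
    have : cj ((m : ℂ) * dz k (fun y => (φ y : ℂ)) z) =
        (m : ℂ) * (starRingEnd ℂ) (dz k (fun y => (φ y : ℂ)) z) := by
      show (starRingEnd ℂ) _ = _
      rw [map_mul, map_natCast]
    rw [this]
    push_cast [hE]
    ring
  have d3 : ∀ j k, cHess (fun y => δ * Real.exp (m * φ y)) z j k =
      E * (m * cHess φ z j k) + E * ((m : ℂ) * dz j (fun y => (φ y : ℂ)) z *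
        cj ((m : ℂ) * dz k (fun y => (φ y : ℂ)) z)) := fun j k => by
    rw [C2.cHess_comp (ψ := fun t => δ * Real.exp (m * t)) (ψ₁ := fun t => m * (δ * Real.exp (m * t)))
      (Eventually.of_forall hψ) (hψ₁ (φ z)) hφ2 j k, C2.dzb_real k hφd]
    have : cj ((m : ℂ) * dz k (fun y => (φ y : ℂ)) z) =
        (m : ℂ) * (starRingEnd ℂ) (dz k (fun y => (φ y : ℂ)) z) := by
      show (starRingEnd ℂ) _ = _
      rw [map_mul, map_natCast]
    rw [this]
    push_cast [hE]
    ring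
  have hdN : DifferentiableAt ℝ (fun y => ((nsq (c y) : ℝ) : ℂ)) z :=
    (ofReal_contDiffAt hN2).differentiableAt (by norm_num)
  have hdE : DifferentiableAt ℝ (fun y => ((δ * Real.exp (m * φ y) : ℝ) : ℂ)) z :=
    (ofReal_contDiffAt hE2).differentiableAt (by norm_num)
  have hsplit : (fun y => ((uu c φ m δ y : ℝ) : ℂ)) = fun y => ((nsq (c y) : ℝ) : ℂ) +
      ((δ * Real.exp (m * φ y) : ℝ) : ℂ) := by
    funext y
    rw [uu, Complex.ofReal_add]
  have key := lagrange' (c z) hE0 (fun j i => dz j (fun y => c y i) z)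
    (fun j => (m : ℂ) * dz j (fun y => (φ y : ℂ)) z)
  convert key using 1
  ext j k
  have hu0 : 0 < uu c φ m δ z := uu_pos hδ z
  have huz : uu c φ m δ z = nsq (c z) + E := rfl
  rw [Matrix.sub_apply, Matrix.smul_apply, smul_eq_mul, C2.cHess_log hu2 hu0, hsplit,
    dz_add hdN hdE, dzb_add hdN hdE, d1, d2, dz_nsq hc, dzb_nsq hc]
  have h1 : cHess (uu c φ m δ) z j k = cHess (fun y => nsq (c y)) z j k +
      cHess (fun y => δ * Real.exp (m * φ y)) z j k := by
    have := cHess_add hN2 hE2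
    exact congrFun (congrFun this j) k
  rw [h1, cHess_nsq hc, d3, Matrix.of_apply, huz]
  have hne : (((nsq (c z) + E : ℝ)) : ℂ) ≠ 0 := by
    have : (0 : ℝ) < nsq (c z) + E := by rw [← huz]; exact hu0
    exact_mod_cast this.ne'
  push_cast at hne ⊢
  field_simp
  ring

end curv

end Vale.Agent.P281.H949.GM
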